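import Vale.Agent.P145.Lim

open MeasureTheory Vale.Agent.P145

theorem Vale.Agent.Results.P145.Limit.result (J U : ℝ) (_hJ : 0 < J) (h0 : 0 ≤ U) (h1 : U ≤ J)
    (h : Real.sinh (2 * J) = Real.exp (-2 * U)) :
    (∀ n, Enclosed (box n)) ∧ ∃ Q : Measure (Z2 → ℤ), IsProbabilityMeasure Q ∧
      IsPlaneLimit (√(1 + Real.exp (4 * U)))⁻¹ Q :=
  ⟨enclosed_box, main_lim _ (par_range h0 h1 h).1 (par_range h0 h1 h).2⟩
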