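import Vale.Agent.P145W.Main

open MeasureTheory Filter Topology Vale.Agent.P145

theorem Vale.Agent.Results.P145.Whole.result (J U : ℝ) (_hJ : 0 < J) (h1 : U ≤ J)
    (h : Real.sinh (2 * J) = Real.exp (-2 * U)) :
    (∀ n, Enclosed (box n)) ∧ ∃ Q : Measure (Z2 → ℤ), IsProbabilityMeasure Q ∧
      IsPlaneLimit (√(1 + Real.exp (4 * U)))⁻¹ Q ∧ ∃ σ : ℝ, 0 ≤ σ ∧ ConvGFF Q σ ∧
        Tendsto (fun n : ℕ => (∫ H, (H ((n : ℤ), -(n : ℤ)) : ℝ) ^ 2 ∂Q) / Real.log n) atTop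
          (𝓝 (2 * σ ^ 2)) ∧ (0 ≤ U → 0 < σ) := by
  obtain ⟨a, b⟩ := Vale.Agent.P145W.par_rangeW h1 h
  obtain ⟨Q, i, l, σ, s, g, v, p⟩ := Vale.Agent.P145W.line a b
  exact ⟨enclosed_box, Q, i, l, σ, s, g, v, fun h0 => p (par_range h0 h1 h).1⟩
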